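import Vale.Agent.Lib.P302.Defs

namespace Vale.Agent.Lib.P302

open Finset

/-- The list of item sizes: size `t i / L` repeated `b i` times. -/
def expand {m : ℕ} (L : ℕ) (t b : Fin m → ℕ) : List ℚ :=
  (List.finRange m).flatMap (fun i => List.replicate (b i) ((t i : ℚ) / L))

lemma mem_expand {m : ℕ} {L : ℕ} {t b : Fin m → ℕ} {a : ℚ} :
    a ∈ expand L t b ↔ ∃ i, b i ≠ 0 ∧ a = (t i : ℚ) / L := by
  simp only [expand, List.mem_flatMap, List.mem_finRange, true_and, List.mem_replicate]

lemma isInstance_expand {m : ℕ} {L : ℕ} {t b : Fin m → ℕ} (hL : 0 < L)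
    (ht : ∀ i, 0 < t i ∧ t i ≤ L) : IsInstance (expand L t b) := by
  intro a ha
  obtain ⟨i, -, rfl⟩ := mem_expand.1 ha
  have hL' : (0 : ℚ) < L := by exact_mod_cast hL
  have h1 : (0 : ℚ) < t i := by exact_mod_cast (ht i).1
  have h2 : (t i : ℚ) ≤ L := by exact_mod_cast (ht i).2
  constructor
  · exact div_pos h1 hL'
  · exact (div_le_one hL').2 h2

lemma sum_map_finRange {m : ℕ} (g : Fin m → ℕ) :
    ((List.finRange m).map g).sum = ∑ i, g i := by
  rw [Fin.sum_univ_def]

lemma count_expand {m : ℕ} {L : ℕ} {t b : Fin m → ℕ} (hL : 0 < L)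
    (ht : Function.Injective t) (i : Fin m) :
    (expand L t b).count ((t i : ℚ) / L) = b i := by
  classical
  have hL' : (L : ℚ) ≠ 0 := by exact_mod_cast hL.ne'
  rw [expand, List.count_flatMap]
  have : (List.map (List.count ((t i : ℚ) / L) ∘ fun i => List.replicate (b i) ((t i : ℚ) / L))
      (List.finRange m)).sum = ∑ j, (if j = i then b i else 0) := by
    rw [sum_map_finRange]
    refine Finset.sum_congr rfl fun j _ => ?_
    simp only [Function.comp, List.count_replicate]
    by_cases h : j = i
    · subst h; simp [add_comm]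
    · have : ¬ ((t j : ℚ) / L = (t i : ℚ) / L) := by
        intro h'
        apply h
        apply ht
        have := (div_left_inj' hL').1 h'
        exact_mod_cast this
      simp [h, this]
  rw [this]
  simp

/-- Upper bound on the LP by an explicit fractional solution, all numbers scaled to naturals. -/
theorem LP_le_of_patterns {m N : ℕ} {L : ℕ} {t b : Fin m → ℕ} (hL : 0 < L)
    (hinj : Function.Injective t) (hb : ∀ i, b i ≠ 0)
    (a : Fin N → Fin m → ℕ) (w : Fin N → ℕ) (D : ℕ) (hD : 0 < D)
    (hcfg : ∀ r, ∑ i, t i * a r i ≤ L)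
    (hcov : ∀ i, b i * D ≤ ∑ r, a r i * w r) :
    LP (expand L t b) ≤ ((∑ r, w r : ℕ) : ℝ) / D := by
  classical
  set I := expand L t b with hI
  have hL' : (0 : ℚ) < L := by exact_mod_cast hL
  have hD' : (0 : ℝ) < D := by exact_mod_cast hD
  -- index of a distinct size
  have hidx : ∀ σ : I.toFinset, ∃ i, (σ : ℚ) = (t i : ℚ) / L := by
    rintro ⟨σ, hσ⟩
    obtain ⟨i, -, h⟩ := mem_expand.1 (List.mem_toFinset.1 hσ)
    exact ⟨i, h⟩
  choose idx hidx using hidx
  have hmem : ∀ i, (t i : ℚ) / L ∈ I.toFinset := fun i =>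
    List.mem_toFinset.2 (mem_expand.2 ⟨i, hb i, rfl⟩)
  have hinj' : ∀ i j, (t i : ℚ) / L = (t j : ℚ) / L → i = j := by
    intro i j h
    apply hinj
    have := (div_left_inj' hL'.ne').1 h
    exact_mod_cast this
  have hbij : Function.Bijective idx := by
    constructor
    · intro σ τ h
      apply Subtype.ext
      rw [hidx σ, hidx τ, h]
    · intro i
      refine ⟨⟨_, hmem i⟩, ?_⟩
      apply hinj'
      exact (hidx ⟨_, hmem i⟩).symm
  have hLP : BddBelow {v : ℝ | ∃ (N : ℕ) (c : Fin N → (I.toFinset → ℕ)) (z : Fin N → ℝ),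
      (∀ r, IsConfig I (c r)) ∧ (∀ r, 0 ≤ z r) ∧
      (∀ σ : I.toFinset, ((I.count (σ : ℚ) : ℕ) : ℝ) ≤ ∑ r, (c r σ : ℝ) * z r) ∧
      v = ∑ r, z r} := by
    refine ⟨0, ?_⟩
    rintro v ⟨_, _, z, _, hz, _, rfl⟩
    exact Finset.sum_nonneg fun r _ => hz r
  refine csInf_le hLP ⟨N, fun r σ => a r (idx σ), fun r => (w r : ℝ) / D, ?_, ?_, ?_, ?_⟩
  · intro r
    unfold IsConfig
    have : ∑ σ : I.toFinset, (σ : ℚ) * (a r (idx σ) : ℚ)
        = ∑ i, ((t i : ℚ) / L) * (a r i : ℚ) := by
      rw [← hbij.sum_comp (fun i => ((t i : ℚ) / L) * (a r i : ℚ))]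
      refine Finset.sum_congr rfl fun σ _ => ?_
      rw [← hidx σ]
    rw [this]
    have h := hcfg r
    have h' : (∑ i, (t i : ℚ) * (a r i : ℚ)) ≤ L := by exact_mod_cast h
    calc ∑ i, ((t i : ℚ) / L) * (a r i : ℚ)
        = (∑ i, (t i : ℚ) * (a r i : ℚ)) / L := by
          rw [Finset.sum_div]
          refine Finset.sum_congr rfl fun i _ => ?_
          ring
      _ ≤ 1 := (div_le_one hL').2 h'
  · intro r
    positivity
  · intro σ
    have hc : I.count (σ : ℚ) = b (idx σ) := by
      rw [hidx σ]
      exact count_expand hL hinj _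
    rw [hc]
    have h := hcov (idx σ)
    have h' : ((b (idx σ) : ℝ)) * D ≤ ∑ r, (a r (idx σ) : ℝ) * (w r : ℝ) := by
      exact_mod_cast h
    have : ∑ r, (a r (idx σ) : ℝ) * ((w r : ℝ) / D)
        = (∑ r, (a r (idx σ) : ℝ) * (w r : ℝ)) / D := by
      rw [Finset.sum_div]
      refine Finset.sum_congr rfl fun r _ => ?_
      ring
    rw [this]
    exact (le_div_iff₀ hD').2 h'
  · push_cast
    rw [Finset.sum_div]

lemma card_filter_get_eq_count (l : List ℚ) (x : ℚ) :
    (Finset.univ.filter (fun p : Fin l.length => l.get p = x)).card = l.count x := by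
  classical
  induction l with
  | nil => simp
  | cons y l ih =>
    rw [List.count_cons]
    have hsum : (Finset.univ.filter (fun p : Fin (y :: l).length => (y :: l).get p = x)).card
        = ∑ p : Fin (l.length + 1), (if (y :: l).get p = x then 1 else 0) := by
      rw [Finset.card_filter]
      rfl
    rw [hsum, Fin.sum_univ_succ]
    have hih : ∑ p : Fin l.length, (if (y :: l).get p.succ = x then 1 else 0)
        = l.count x := by
      rw [← ih, Finset.card_filter]
      rfl
    rw [hih]
    by_cases h : y = x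
    · subst h; simp [add_comm]
    · simp [h]

/-- From a packing of a list to a decomposition of the demand vector into patterns. -/
theorem patterns_of_packable_aux {m k : ℕ} {L : ℕ} {t b : Fin m → ℕ} (hL : 0 < L)
    (hinj : Function.Injective t) (I : List ℚ)
    (hmem : ∀ a ∈ I, ∃ i, a = (t i : ℚ) / L)
    (hcount : ∀ i, I.count ((t i : ℚ) / L) = b i)
    (h : PackableIn I k) :
    ∃ a : Fin k → Fin m → ℕ,
      (∀ j, ∑ i, t i * a j i ≤ L) ∧ (∀ i, ∑ j, a j i = b i) := by
  classical
  obtain ⟨f, hf⟩ := h
  have hL' : (0 : ℚ) < L := by exact_mod_cast hL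
  have hinj' : ∀ i j, (t i : ℚ) / L = (t j : ℚ) / L → i = j := by
    intro i j h
    apply hinj
    have := (div_left_inj' hL'.ne').1 h
    exact_mod_cast this
  -- every item has a type
  have hty : ∀ p : Fin I.length, ∃ i, I.get p = (t i : ℚ) / L := by
    intro p
    exact hmem _ (List.get_mem _ _)
  choose ty hty using hty
  refine ⟨fun j i => (Finset.univ.filter (fun p => f p = j ∧ ty p = i)).card, ?_, ?_⟩
  · intro j
    have h1 := hf j
    have h2 : ∑ p ∈ Finset.univ.filter (fun p => f p = j), I.get p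
        = ∑ i, ((Finset.univ.filter (fun p => f p = j ∧ ty p = i)).card : ℚ) * ((t i : ℚ) / L) := by
      rw [← Finset.sum_fiberwise (Finset.univ.filter (fun p => f p = j)) ty]
      refine Finset.sum_congr rfl fun i _ => ?_
      have : (Finset.univ.filter (fun p => f p = j)).filter (fun p => ty p = i)
          = Finset.univ.filter (fun p => f p = j ∧ ty p = i) := by
        ext p; simp [Finset.mem_filter]
      rw [this, Finset.sum_congr rfl (g := fun _ => (t i : ℚ) / L)]
      · simp
      · intro p hp
        rw [hty p, (Finset.mem_filter.1 hp).2.2]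
    rw [h2] at h1
    have h3 : ((∑ i, t i * (Finset.univ.filter (fun p => f p = j ∧ ty p = i)).card : ℕ) : ℚ) ≤ L := by
      have : ((∑ i, t i * (Finset.univ.filter (fun p => f p = j ∧ ty p = i)).card : ℕ) : ℚ)
          = (∑ i, ((Finset.univ.filter (fun p => f p = j ∧ ty p = i)).card : ℚ)
              * ((t i : ℚ) / L)) * L := by
        push_cast
        rw [Finset.sum_mul]
        refine Finset.sum_congr rfl fun i _ => ?_
        field_simp
      rw [this]
      calc _ ≤ (1 : ℚ) * L := by
              exact mul_le_mul_of_nonneg_right h1 hL'.le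
        _ = L := one_mul _
    exact_mod_cast h3
  · intro i
    have h1 : (Finset.univ.filter (fun p => ty p = i)).card = b i := by
      have h2 : Finset.univ.filter (fun p => ty p = i)
          = Finset.univ.filter (fun p : Fin I.length => I.get p = (t i : ℚ) / L) := by
        ext p
        simp only [Finset.mem_filter, Finset.mem_univ, true_and]
        constructor
        · intro h; rw [hty p, h]
        · intro h; apply hinj'; rw [← hty p, h]
      rw [h2, card_filter_get_eq_count]
      exact hcount i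
    rw [← h1, Finset.card_eq_sum_card_fiberwise (f := f) (t := Finset.univ)]
    · refine Finset.sum_congr rfl fun j _ => ?_
      apply congrArg Finset.card
      ext p
      simp [Finset.mem_filter, and_comm]
    · intro p _
      simp

/-- From a packing of the expanded list to a decomposition of the demand vector into patterns. -/
theorem patterns_of_packable {m k : ℕ} {L : ℕ} {t b : Fin m → ℕ} (hL : 0 < L)
    (hinj : Function.Injective t) (h : PackableIn (expand L t b) k) :
    ∃ a : Fin k → Fin m → ℕ,
      (∀ j, ∑ i, t i * a j i ≤ L) ∧ (∀ i, ∑ j, a j i = b i) := by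
  refine patterns_of_packable_aux hL hinj _ ?_ (count_expand hL hinj) h
  intro a ha
  obtain ⟨i, -, h⟩ := mem_expand.1 ha
  exact ⟨i, h⟩

end Vale.Agent.Lib.P302
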