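import Vale.Agent.Lib.P302.Bridge

/-!
A kernel-executable search refuting the existence of a decomposition of a demand vector into
patterns. All data are lists of naturals; `val a i` reads a list as a function with default `0`.
-/

namespace Vale.Agent.Lib.P302

/-- Reads a list as a function with default value `0`. -/
def val (a : List ℕ) (i : ℕ) : ℕ := a.getD i 0

@[simp] lemma val_nil (i : ℕ) : val [] i = 0 := by simp [val]
@[simp] lemma val_cons_zero (x : ℕ) (xs : List ℕ) : val (x :: xs) 0 = x := by simp [val]
@[simp] lemma val_cons_succ (x : ℕ) (xs : List ℕ) (i : ℕ) : val (x :: xs) (i + 1) = val xs i := by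
  simp [val]
lemma val_headD (a : List ℕ) : a.headD 0 = val a 0 := by cases a <;> simp
lemma val_tail (a : List ℕ) (i : ℕ) : val a.tail i = val a (i + 1) := by cases a <;> simp

/-- Dot product. -/
def dot : List ℕ → List ℕ → ℕ
  | [], _ => 0
  | w :: ws, a => w * a.headD 0 + dot ws a.tail

/-- Pointwise comparison. -/
def leAll : List ℕ → List ℕ → Bool
  | [], _ => true
  | x :: xs, b => Nat.ble x (b.headD 0) && leAll xs b.tail

/-- Pointwise truncated subtraction `b - a`. -/
def subL : List ℕ → List ℕ → List ℕ
  | [], _ => []
  | y :: ys, a => (y - a.headD 0) :: subL ys a.tail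

/-- All entries vanish. -/
def isZero : List ℕ → Bool
  | [] => true
  | y :: ys => Nat.beq y 0 && isZero ys

/-- `a` is positive at the first positive entry of `b`. -/
def headHit : List ℕ → List ℕ → Bool
  | [], _ => false
  | y :: ys, a => bif Nat.beq y 0 then headHit ys a.tail else Nat.ble 1 (a.headD 0)

/-- Equality test for lists of naturals. -/
def eqL : List ℕ → List ℕ → Bool
  | [], [] => true
  | x :: xs, y :: ys => Nat.beq x y && eqL xs ys
  | _, _ => false

/-- Depth-first search: `true` means there is no decomposition of `b` into `k` patterns from `P`,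
provided all patterns in `P` have `W`-weight at most `U`. -/
def dfs (P : List (List ℕ)) (W : List ℕ) (U : ℕ) : ℕ → List ℕ → Bool
  | 0, b => !isZero b
  | k + 1, b =>
    bif isZero b then false
    else bif Nat.ble (dot W b) ((k + 1) * U) then
      P.all (fun a => bif headHit b a && leAll a b then dfs P W U k (subL b a) else true)
    else true

/-- Runs the test `chk` on all lists of the length of `t` that are pointwise at most `b` and have
dot product with `t` at most `cap`. -/
def allPats : (List ℕ → Bool) → List ℕ → List ℕ → ℕ → Bool
  | chk, [], _, _ => chk []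
  | chk, t :: ts, b, cap =>
    (List.range (min (b.headD 0) (cap / t) + 1)).all
      (fun c => allPats (fun rest => chk (c :: rest)) ts b.tail (cap - c * t))

/-- The test on one pattern: it has weight at most `U`, and it is in `P` or has weight below
`U - B`. -/
def chkPat (P : List (List ℕ)) (W : List ℕ) (U B : ℕ) (a : List ℕ) : Bool :=
  Nat.ble (dot W a) U && (Nat.ble (dot W a + B + 1) U || P.any (fun p => eqL p a))

/-- The whole check. -/
def noPack (t bb W : List ℕ) (L U B k : ℕ) (P : List (List ℕ)) : Bool :=
  t.all (fun x => Nat.ble 1 x) &&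
  Nat.beq (B + dot W bb) (k * U) &&
  P.all (fun p => Nat.ble (dot W p) U) &&
  allPats (chkPat P W U B) t bb L &&
  dfs P W U k bb

lemma leAll_iff (a b : List ℕ) : leAll a b = true ↔ ∀ i, val a i ≤ val b i := by
  induction a generalizing b with
  | nil => simp [leAll]
  | cons x xs ih =>
    simp only [leAll, Bool.and_eq_true, Nat.ble_eq, ih, val_headD]
    constructor
    · rintro ⟨h0, h1⟩ i
      cases i with
      | zero => simpa using h0
      | succ i =>
        have := h1 i
        simpa [val_tail] using this
    · intro h
      refine ⟨by simpa using h 0, fun i => ?_⟩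
      rw [val_tail]
      simpa using h (i + 1)

lemma val_subL (b a : List ℕ) (i : ℕ) : val (subL b a) i = val b i - val a i := by
  induction b generalizing a i with
  | nil => simp [subL]
  | cons y ys ih =>
    cases i with
    | zero => simp only [subL, val_cons_zero, val_headD]
    | succ i => simp [subL, ih, val_tail]

lemma isZero_iff (b : List ℕ) : isZero b = true ↔ ∀ i, val b i = 0 := by
  induction b with
  | nil => simp [isZero]
  | cons y ys ih =>
    simp only [isZero, Bool.and_eq_true, ih]
    constructor
    · rintro ⟨h0, h1⟩ i
      cases i with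
      | zero => simpa using Nat.eq_of_beq_eq_true h0
      | succ i => simpa using h1 i
    · intro h
      refine ⟨?_, fun i => by simpa using h (i + 1)⟩
      have := h 0
      simp only [val_cons_zero] at this
      simp [this]

lemma eqL_eq {a b : List ℕ} (h : eqL a b = true) : a = b := by
  induction a generalizing b with
  | nil =>
    cases b with
    | nil => rfl
    | cons y ys => simp [eqL] at h
  | cons x xs ih =>
    cases b with
    | nil => simp [eqL] at h
    | cons y ys =>
      simp only [eqL, Bool.and_eq_true] at h
      rw [Nat.eq_of_beq_eq_true h.1, ih h.2]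

/-- Sum of a family of lists, read pointwise. -/
def SumsTo (ps : List (List ℕ)) (b : List ℕ) : Prop :=
  ∀ i, (ps.map (fun p => val p i)).sum = val b i

lemma SumsTo.tail {ps : List (List ℕ)} {b : List ℕ} (h : SumsTo ps b) :
    SumsTo (ps.map List.tail) b.tail := by
  intro i
  rw [val_tail, ← h (i + 1), List.map_map]
  congr 1
  apply List.map_congr_left
  intro p _
  simp [val_tail]

lemma dot_sum (W : List ℕ) (ps : List (List ℕ)) (b : List ℕ) (h : SumsTo ps b) :
    dot W b = (ps.map (dot W)).sum := by
  induction W generalizing ps b with
  | nil => simp [dot]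
  | cons w ws ih =>
    simp only [dot, val_headD]
    rw [← h 0, ih _ _ h.tail, List.map_map, ← List.sum_map_mul_left, ← List.sum_map_add]
    congr 1

lemma exists_headHit (b : List ℕ) (ps : List (List ℕ)) (h : SumsTo ps b) (hb : isZero b = false) :
    ∃ p ∈ ps, headHit b p = true := by
  induction b generalizing ps with
  | nil => simp [isZero] at hb
  | cons y ys ih =>
    cases hy : Nat.beq y 0 with
    | true =>
      have hy0 : y = 0 := Nat.eq_of_beq_eq_true hy
      have hb' : isZero ys = false := by simpa [isZero, hy] using hb
      have ht := h.tail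
      obtain ⟨q, hq, hq'⟩ := ih (ps.map List.tail) (by simpa using ht) hb'
      obtain ⟨p, hp, rfl⟩ := List.mem_map.1 hq
      exact ⟨p, hp, by simpa [headHit, hy] using hq'⟩
    | false =>
      have h0 := h 0
      simp only [val_cons_zero] at h0
      have hypos : 0 < y := by
        rcases Nat.eq_zero_or_pos y with h' | h'
        · subst h'; simp at hy
        · exact h'
      have : ∃ p ∈ ps, 0 < val p 0 := by
        by_contra hcon
        push Not at hcon
        have : (ps.map (fun p => val p 0)).sum = 0 := by
          apply List.sum_eq_zero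
          intro x hx
          obtain ⟨p, hp, rfl⟩ := List.mem_map.1 hx
          exact Nat.le_zero.1 (hcon p hp)
        omega
      obtain ⟨p, hp, hp'⟩ := this
      refine ⟨p, hp, ?_⟩
      simp only [headHit, hy, cond_false, val_headD]
      exact Nat.ble_eq_true_of_le hp'

lemma val_le_of_mem {ps : List (List ℕ)} {b p : List ℕ} (h : SumsTo ps b) (hp : p ∈ ps) (i : ℕ) :
    val p i ≤ val b i := by
  rw [← h i]
  exact List.single_le_sum (by simp) _ (List.mem_map.2 ⟨p, hp, rfl⟩)

lemma SumsTo.erase {ps : List (List ℕ)} {b p : List ℕ} (h : SumsTo ps b) (hp : p ∈ ps) :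
    SumsTo (ps.erase p) (subL b p) := by
  intro i
  rw [val_subL, ← h i]
  have hperm := (List.perm_cons_erase hp).map (fun q => val q i)
  rw [hperm.sum_eq]
  simp

theorem dfs_sound (P : List (List ℕ)) (W : List ℕ) (U : ℕ)
    (hP : ∀ p ∈ P, dot W p ≤ U) (k : ℕ) (b : List ℕ) (hdfs : dfs P W U k b = true)
    (ps : List (List ℕ)) (hlen : ps.length = k) (hmem : ∀ p ∈ ps, p ∈ P) (hsum : SumsTo ps b) :
    False := by
  induction k generalizing b ps with
  | zero =>
    have : ps = [] := List.length_eq_zero_iff.1 hlen
    subst this
    have : isZero b = true := (isZero_iff b).2 fun i => by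
      rw [← hsum i]; simp
    simp [dfs, this] at hdfs
  | succ k ih =>
    simp only [dfs] at hdfs
    cases hz : isZero b with
    | true => simp [hz] at hdfs
    | false =>
      simp only [hz, cond_false] at hdfs
      have hweight : dot W b ≤ (k + 1) * U := by
        rw [dot_sum W ps b hsum]
        calc (ps.map (dot W)).sum ≤ ps.length • U :=
              List.sum_le_card_nsmul _ _ (by
                intro x hx
                obtain ⟨p, hp, rfl⟩ := List.mem_map.1 hx
                exact hP p (hmem p hp)) |>.trans (by simp)
          _ = (k + 1) * U := by simp [hlen]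
      have hble : Nat.ble (dot W b) ((k + 1) * U) = true := Nat.ble_eq_true_of_le hweight
      simp only [hble, cond_true, List.all_eq_true] at hdfs
      obtain ⟨p, hp, hhit⟩ := exists_headHit b ps hsum hz
      have hle : leAll p b = true := (leAll_iff p b).2 (val_le_of_mem hsum hp)
      have := hdfs p (hmem p hp)
      simp only [hhit, hle, Bool.and_self, cond_true] at this
      refine ih _ this (ps.erase p) ?_ ?_ (hsum.erase hp)
      · rw [List.length_erase_of_mem hp, hlen]; rfl
      · intro q hq
        exact hmem q (List.mem_of_mem_erase hq)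

lemma allPats_sound (chk : List ℕ → Bool) (t : List ℕ) (b : List ℕ) (cap : ℕ)
    (htpos : ∀ x ∈ t, 1 ≤ x) (h : allPats chk t b cap = true) (a : List ℕ)
    (hlen : a.length = t.length) (hle : ∀ i, val a i ≤ val b i) (hdot : dot t a ≤ cap) :
    chk a = true := by
  induction t generalizing chk b cap a with
  | nil =>
    have : a = [] := List.length_eq_zero_iff.1 (by simpa using hlen)
    subst this
    simpa [allPats] using h
  | cons x xs ih =>
    cases a with
    | nil => simp at hlen
    | cons c rest =>
      simp only [allPats, List.all_eq_true, List.mem_range] at h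
      simp only [dot, List.headD_cons, List.tail_cons] at hdot
      have hx : 1 ≤ x := htpos x (by simp)
      have hc : c < min (b.headD 0) (cap / x) + 1 := by
        rw [Nat.lt_succ_iff, le_min_iff]
        constructor
        · rw [val_headD]
          simpa using hle 0
        · rw [Nat.le_div_iff_mul_le hx]
          nlinarith
      have h1 := h c hc
      have := ih (fun r => chk (c :: r)) b.tail (cap - c * x)
        (fun y hy => htpos y (by simp [hy])) h1 rest (by simpa using hlen)
        (fun i => by rw [val_tail]; simpa using hle (i + 1))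
        (by rw [Nat.le_sub_iff_add_le (by nlinarith)]; nlinarith)
      exact this

/-- The main soundness statement of the check at list level. -/
theorem noPack_sound (t bb W : List ℕ) (L U B k : ℕ) (P : List (List ℕ))
    (h : noPack t bb W L U B k P = true)
    (ps : List (List ℕ)) (hlen : ps.length = k)
    (hplen : ∀ p ∈ ps, p.length = t.length)
    (hdot : ∀ p ∈ ps, dot t p ≤ L)
    (hsum : SumsTo ps bb) : False := by
  simp only [noPack, Bool.and_eq_true, List.all_eq_true] at h
  obtain ⟨⟨⟨⟨htpos, hB⟩, hPU⟩, hall⟩, hdfs⟩ := h
  have hB' : B + dot W bb = k * U := Nat.eq_of_beq_eq_true hB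
  have hPU' : ∀ p ∈ P, dot W p ≤ U := fun p hp => Nat.le_of_ble_eq_true (hPU p hp)
  have htpos' : ∀ x ∈ t, 1 ≤ x := fun x hx => Nat.le_of_ble_eq_true (htpos x hx)
  have hchk : ∀ p ∈ ps, chkPat P W U B p = true := fun p hp =>
    allPats_sound _ t bb L htpos' hall p (hplen p hp) (val_le_of_mem hsum hp) (hdot p hp)
  have hU : ∀ p ∈ ps, dot W p ≤ U := fun p hp => by
    have := hchk p hp
    simp only [chkPat, Bool.and_eq_true] at this
    exact Nat.le_of_ble_eq_true this.1
  refine dfs_sound P W U hPU' k bb hdfs ps hlen ?_ hsum
  intro p hp
  have hc := hchk p hp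
  simp only [chkPat, Bool.and_eq_true, Bool.or_eq_true, List.any_eq_true] at hc
  rcases hc.2 with h1 | ⟨q, hq, hq'⟩
  · exfalso
    have h1' : dot W p + B + 1 ≤ U := Nat.le_of_ble_eq_true h1
    -- the other patterns have weight at most U each
    have hperm := (List.perm_cons_erase hp).map (dot W)
    have hs : dot W bb = dot W p + ((ps.erase p).map (dot W)).sum := by
      rw [dot_sum W ps bb hsum, hperm.sum_eq]
      simp
    have hrest : ((ps.erase p).map (dot W)).sum ≤ (k - 1) * U := by
      calc ((ps.erase p).map (dot W)).sum ≤ (ps.erase p).length • U :=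
            List.sum_le_card_nsmul _ _ (by
              intro x hx
              obtain ⟨q, hq, rfl⟩ := List.mem_map.1 hx
              exact hU q (List.mem_of_mem_erase hq)) |>.trans (by simp)
        _ = (k - 1) * U := by
            rw [List.length_erase_of_mem hp, hlen]; simp
    have hkpos : 1 ≤ k := by
      rw [← hlen]
      exact List.length_pos_of_mem hp
    obtain ⟨k', rfl⟩ : ∃ k', k = k' + 1 := ⟨k - 1, by omega⟩
    simp only [Nat.add_sub_cancel] at hrest
    have : (k' + 1) * U = k' * U + U := by ring
    omega
  · rw [← eqL_eq hq']
    exact hq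

/-- Final form: a check implies that the expanded list cannot be packed in `k` bins. -/
theorem not_packable_of_check (t bb W : List ℕ) (L U B k : ℕ) (P : List (List ℕ))
    (hL : 0 < L) (hbb : bb.length = t.length)
    (hinj : Function.Injective (fun i : Fin t.length => t.get i))
    (h : noPack t bb W L U B k P = true) :
    ¬ PackableIn (expand L (fun i : Fin t.length => t.get i)
      (fun i : Fin t.length => val bb i)) k := by
  intro hp
  obtain ⟨a, ha1, ha2⟩ := patterns_of_packable hL hinj hp
  let pj : Fin k → List ℕ := fun j => List.ofFn (a j)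
  have hval : ∀ j (i : ℕ), val (pj j) i = if hi : i < t.length then a j ⟨i, hi⟩ else 0 := by
    intro j i
    simp only [val, pj, List.getD_eq_getElem?_getD, List.getElem?_ofFn]
    split_ifs <;> simp
  refine noPack_sound t bb W L U B k P h (List.ofFn pj) (by simp) ?_ ?_ ?_
  · intro p hp
    obtain ⟨j, rfl⟩ := (List.mem_ofFn' _ _).1 hp
    simp [pj]
  · intro p hp
    obtain ⟨j, rfl⟩ := (List.mem_ofFn' _ _).1 hp
    have hdot_eq : ∀ (s : List ℕ) (f : Fin s.length → ℕ),
        dot s (List.ofFn f) = ∑ i, s.get i * f i := by
      intro s
      induction s with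
      | nil => intro f; simp [dot]
      | cons x xs ih =>
        intro f
        simp only [dot, List.length_cons, List.ofFn_succ, List.headD_cons, List.tail_cons,
          Fin.sum_univ_succ, List.get_cons_zero]
        rw [ih]
        rfl
    rw [show pj j = List.ofFn (a j) from rfl, hdot_eq]
    exact ha1 j
  · intro i
    rw [List.map_ofFn, List.sum_ofFn]
    by_cases hi : i < t.length
    · simp only [Function.comp, hval, hi, dif_pos]
      exact ha2 ⟨i, hi⟩
    · simp only [Function.comp, hval, hi, dif_neg, not_false_eq_true, Finset.sum_const_zero]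
      have : bb.length ≤ i := by omega
      simp [val, List.getElem?_eq_none this]

end Vale.Agent.Lib.P302
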