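import Vale.Agent.Lib.P302.Group

/-! Certificate data for one explicit bin packing instance. -/

namespace Vale.Agent.Lib.P302.G29x24

open Vale.Agent.Lib.P302

def sizes : List ℕ := [2234,2214,2179,1448,1436,1250,1013,979,976,965,962,960,956,949,927,714,369,362,350,327,323,299]
def mult : List ℕ := [1,1,1,2,1,2,1,2,1,2,1,2,2,2,1,2,1,1,1,2,1,1]
def cap : ℕ := 2880
def duals : List ℕ := [288,280,272,168,156,144,120,120,114,108,105,104,102,96,84,72,24,24,20,16,12,8]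
def forms : List (List ℕ) := [[0,0,0,0,0,0,0,0,1,0,0,0,0,0,0,0,0,0,0,0,0,0],[0,0,0,0,0,0,0,0,0,0,0,0,0,0,0,0,0,0,0,0,1,0],[0,0,0,0,1,0,0,0,0,0,1,0,0,0,0,0,0,0,0,0,0,0],[0,0,0,0,0,0,0,0,6,12,3,16,42,24,36,0,0,0,0,0,0,0]]
def moduli : List ℕ := [2,2,2,48]
def code : ℕ := 45061928471268324698261935736616874105156015767604602135216213503755218238403104685600244236011152436082118089131783822895601097016235645113566876513154875795136805828479859043082375754250917480945638960494437863935444172732412202745640297800173187291393257352315451091059439327145738878694891008948150888214492145058506087905321438689863244635299808523861947730079941693661774326515260811370035053423676693759757201069777978930689388489930712784916011541814470985356323022212236941113510494605677761920106097111089266993924063990636171509691037042302422776090613429735188250884750748559224402078886550260762466850373407933660989149453017009591573342669326447168491727898793724344997868686839406925103582563192105354994598721871465936683045033855049145287874650008575929104857790741842194898980345193091369984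
def lpPats : List (List ℕ) := [[0,0,0,0,0,2,0,0,0,0,0,0,0,0,0,0,1,0,0,0,0,0],[0,0,0,0,0,0,0,2,0,0,0,0,0,0,0,1,0,0,0,0,0,0],[0,0,1,0,0,0,0,0,0,0,0,0,0,0,0,0,0,0,2,0,0,0],[0,1,0,0,0,0,0,0,0,0,0,0,0,0,0,0,0,1,0,0,0,1],[0,0,0,0,2,0,0,0,0,0,0,0,0,0,0,0,0,0,0,0,0,0],[0,0,0,1,0,0,0,1,0,0,0,0,0,0,0,0,1,0,0,0,0,0],[0,0,0,0,0,0,0,0,0,2,0,0,0,1,0,0,0,0,0,0,0,0],[0,0,0,0,0,0,0,0,2,0,0,0,0,0,1,0,0,0,0,0,0,0],[0,0,0,0,0,2,0,0,0,0,0,0,0,0,0,0,0,1,0,0,0,0],[0,0,1,0,0,0,0,0,0,0,0,0,0,0,0,0,1,0,0,1,0,0],[0,0,0,0,0,0,0,0,0,0,0,3,0,0,0,0,0,0,0,0,0,0],[0,0,0,0,0,0,0,0,0,1,0,0,2,0,0,0,0,0,0,0,0,0],[0,0,0,0,0,0,0,1,0,0,0,0,0,2,0,0,0,0,0,0,0,0],[0,0,0,1,0,1,0,0,0,0,0,0,0,0,0,0,0,0,0,0,0,0],[0,0,0,1,0,0,0,0,0,0,0,0,0,0,0,2,0,0,0,0,0,0],[1,0,0,0,0,0,0,0,0,0,0,0,0,0,0,0,0,0,0,0,2,0],[1,0,0,0,0,0,0,0,0,0,0,0,0,0,0,0,0,0,0,1,0,1],[0,1,0,0,0,0,0,0,0,0,0,0,0,0,0,0,0,0,0,2,0,0],[0,0,0,0,0,0,2,0,0,0,0,0,0,0,0,1,0,0,0,0,0,0],[0,0,0,0,0,0,0,0,0,0,2,0,1,0,0,0,0,0,0,0,0,0],[0,0,0,0,0,0,0,1,0,1,0,0,0,0,1,0,0,0,0,0,0,0]]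
def lpWts : List ℕ := [3,6,24,24,24,21,18,24,24,24,32,36,39,42,33,24,24,24,24,24,24]

theorem checkLP_ok : checkLP sizes mult lpPats lpWts cap 48 = true := by decide +kernel
theorem noPack_ok : noPackG sizes mult duals cap 312 11 forms moduli (phiCode 7 code moduli) = true := by
  decide +kernel

/-- The explicit instance has `OPT - LP` at least 29/24. -/
theorem gap : IsInstance (mkInst sizes mult cap) ∧
    ((29 : ℝ) / 24) ≤ (OPT (mkInst sizes mult cap) : ℝ) - LP (mkInst sizes mult cap) := by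
  have h := gap_geG sizes mult duals cap 312 11 forms moduli (phiCode 7 code moduli) lpPats lpWts 48 checkLP_ok noPack_ok
  refine ⟨h.1, le_trans (le_of_eq ?_) h.2⟩
  have hs : lpWts.sum = 518 := by decide +kernel
  rw [hs]
  norm_num

end Vale.Agent.Lib.P302.G29x24

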