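import Vale.Agent.Lib.P302.Group

/-! Certificate data for one explicit bin packing instance. -/

namespace Vale.Agent.Lib.P302.G749

open Vale.Agent.Lib.P302

def sizes : List ℕ := [1160,1124,1107,1093,724,718,630,491,490,482,480,479,473,460,355,180,172,165,153,136]
def mult : List ℕ := [1,1,1,1,2,1,2,3,1,2,1,1,2,1,2,2,1,2,2,2]
def cap : ℕ := 1440
def duals : List ℕ := [576,552,540,534,336,312,288,240,228,216,208,204,192,168,144,48,45,42,36,24]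
def forms : List (List ℕ) := [[0,0,0,0,0,0,0,0,1,0,0,0,0,0,0,0,0,0,0,0],[0,0,0,0,0,1,0,0,1,0,0,1,0,0,0,0,0,0,0,0],[0,0,0,0,0,0,0,0,21,18,16,3,12,6,0,0,0,0,0,0]]
def moduli : List ℕ := [2,2,24]
def code : ℕ := 607695738410474788455060393937198459766718761530182306860565845493118051408104032677548241009234450273873804782989986793968254838117835148061810787991190146798155145412409493151095945094974002603134643861998223666873073810248577024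
def lpPats : List (List ℕ) := [[0,0,0,0,1,0,0,0,0,0,0,0,0,0,2,0,0,0,0,0],[0,0,0,0,0,0,0,2,0,0,0,0,0,0,1,0,0,0,0,0],[0,0,1,0,0,0,0,0,0,0,0,0,0,0,0,0,0,2,0,0],[0,0,0,0,0,0,0,1,0,1,0,0,0,1,0,0,0,0,0,0],[0,0,0,1,0,0,0,0,0,0,0,0,0,0,0,0,2,0,0,0],[0,0,0,0,0,2,0,0,0,0,0,0,0,0,0,0,0,0,0,0],[1,0,0,0,0,0,0,0,0,0,0,0,0,0,0,1,0,0,0,0],[0,0,0,0,1,0,1,0,0,0,0,0,0,0,0,0,0,0,0,0],[0,0,0,0,0,0,2,0,0,0,0,0,0,0,0,1,0,0,0,0],[0,1,0,0,0,0,0,0,0,0,0,0,0,0,0,0,0,0,2,0],[0,0,0,0,0,0,0,0,0,0,3,0,0,0,0,0,0,0,0,0],[0,0,0,0,0,0,0,0,0,1,0,2,0,0,0,0,0,0,0,0],[0,0,0,0,0,0,0,1,0,0,0,0,2,0,0,0,0,0,0,0],[0,0,0,0,1,0,0,1,0,0,0,0,0,0,0,1,0,0,0,0],[0,1,0,0,0,0,0,0,0,0,0,0,0,0,0,1,0,0,0,1],[0,0,0,0,0,0,0,0,0,2,0,0,1,0,0,0,0,0,0,0],[1,0,0,0,0,0,0,0,0,0,0,0,0,0,0,0,0,0,0,2],[0,0,0,0,0,0,0,0,2,0,0,0,0,1,0,0,0,0,0,0],[0,0,0,1,0,0,0,0,0,0,0,0,0,0,0,1,0,1,0,0],[0,0,1,0,0,0,0,0,0,0,0,0,0,0,0,1,0,0,1,0]]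
def lpWts : List ℕ := [426,396,468,312,312,312,39,522,363,546,208,312,468,300,78,312,585,312,312,156]

theorem checkLP_ok : checkLP sizes mult lpPats lpWts cap 624 = true := by decide +kernel
theorem noPack_ok : noPackG sizes mult duals cap 624 11 forms moduli (phiCode 8 code moduli) = true := by
  decide +kernel

/-- The explicit instance has `OPT - LP` at least 749/624. -/
theorem gap : IsInstance (mkInst sizes mult cap) ∧
    ((749 : ℝ) / 624) ≤ (OPT (mkInst sizes mult cap) : ℝ) - LP (mkInst sizes mult cap) := by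
  have h := gap_geG sizes mult duals cap 624 11 forms moduli (phiCode 8 code moduli) lpPats lpWts 624 checkLP_ok noPack_ok
  refine ⟨h.1, le_trans (le_of_eq ?_) h.2⟩
  have hs : lpWts.sum = 6739 := by decide +kernel
  rw [hs]
  norm_num

end Vale.Agent.Lib.P302.G749

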