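import Mathlib

/-!
# Bin packing: the optimum and the Gilmore-Gomory configuration LP

An instance is a list of rational item sizes.
-/

namespace Vale.Agent.Lib.P302

/-- The instance is valid: all item sizes lie in the interval (0,1]. -/
def IsInstance (I : List ℚ) : Prop := ∀ a ∈ I, 0 < a ∧ a ≤ 1

/-- The items of `I` can be partitioned into `m` bins of total size at most one each. -/
def PackableIn (I : List ℚ) (m : ℕ) : Prop :=
  ∃ f : Fin I.length → Fin m,
    ∀ j : Fin m, ∑ i ∈ Finset.univ.filter (fun i => f i = j), I.get i ≤ 1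

/-- `OPT(I)`: the least number of bins into which the items can be partitioned. -/
noncomputable def OPT (I : List ℚ) : ℕ := sInf {m | PackableIn I m}

/-- A configuration of `I`: a vector `c` of nonnegative integers indexed by the
set of distinct sizes of `I`, with `∑ σ, σ * c σ ≤ 1`. -/
def IsConfig (I : List ℚ) (c : I.toFinset → ℕ) : Prop :=
  ∑ σ : I.toFinset, (σ : ℚ) * (c σ : ℚ) ≤ 1

/-- `LP(I)`: the Gilmore-Gomory configuration LP value: the infimum of `∑ r, z r` over all
finite families of configurations `c r` with nonnegative real weights `z r` that cover each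
distinct size `σ` at least as many times as it occurs in `I`. -/
noncomputable def LP (I : List ℚ) : ℝ :=
  sInf {v : ℝ | ∃ (N : ℕ) (c : Fin N → (I.toFinset → ℕ)) (z : Fin N → ℝ),
    (∀ r, IsConfig I (c r)) ∧ (∀ r, 0 ≤ z r) ∧
    (∀ σ : I.toFinset, ((I.count (σ : ℚ) : ℕ) : ℝ) ≤ ∑ r, (c r σ : ℝ) * z r) ∧
    v = ∑ r, z r}

end Vale.Agent.Lib.P302
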