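import Vale.Agent.Lib.P302.Checker

/-!
General wrapper: from kernel-checked data to a lower bound on `OPT - LP`.
-/

namespace Vale.Agent.Lib.P302

open Finset

lemma PackableIn.mono {I : List ℚ} {m m' : ℕ} (h : PackableIn I m) (hm : m ≤ m') :
    PackableIn I m' := by
  classical
  obtain ⟨f, hf⟩ := h
  refine ⟨fun i => Fin.castLE hm (f i), fun j => ?_⟩
  by_cases hj : (j : ℕ) < m
  · have := hf ⟨j, hj⟩
    convert this using 3
    simp [Fin.ext_iff]
  · have : Finset.univ.filter (fun i => Fin.castLE hm (f i) = j) = ∅ := by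
      apply Finset.filter_eq_empty_iff.2
      intro i _ h
      apply hj
      rw [← h]
      simp
    rw [this]
    simp

lemma packableIn_length {I : List ℚ} (hI : IsInstance I) : PackableIn I I.length := by
  classical
  refine ⟨fun i => i, fun j => ?_⟩
  have : Finset.univ.filter (fun i => i = j) = {j} := by
    ext i; simp
  rw [this]
  simp only [Finset.sum_singleton]
  exact (hI _ (List.get_mem _ _)).2

theorem OPT_ge {I : List ℚ} (hI : IsInstance I) {k : ℕ} (h : ¬ PackableIn I k) :
    k + 1 ≤ OPT I := by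
  by_contra hcon
  have hne : {m | PackableIn I m}.Nonempty := ⟨_, packableIn_length hI⟩
  have hmem : PackableIn I (OPT I) := Nat.sInf_mem hne
  exact h (hmem.mono (by omega))

/-- Coverage of index `i` by the patterns `pats` with weights `ws`. -/
def covSum : List (List ℕ) → List ℕ → ℕ → ℕ
  | [], _, _ => 0
  | p :: ps, w, i => val p i * w.headD 0 + covSum ps w.tail i

lemma covSum_eq (pats : List (List ℕ)) (ws : List ℕ) (i : ℕ) :
    covSum pats ws i = ∑ r : Fin pats.length, val (pats.get r) i * val ws r := by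
  induction pats generalizing ws with
  | nil => simp [covSum]
  | cons p ps ih =>
    simp only [covSum, List.length_cons, Fin.sum_univ_succ, ih, val_headD, List.get_cons_zero,
      Fin.val_zero]
    congr 1
    refine Finset.sum_congr rfl fun r _ => ?_
    simp [val_tail]

lemma dot_eq_sum (s p : List ℕ) : dot s p = ∑ i : Fin s.length, s.get i * val p i := by
  induction s generalizing p with
  | nil => simp [dot]
  | cons x xs ih =>
    simp only [dot, List.length_cons, Fin.sum_univ_succ, ih, val_headD, List.get_cons_zero,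
      Fin.val_zero]
    congr 1
    refine Finset.sum_congr rfl fun r _ => ?_
    simp [val_tail]

lemma sum_val_eq (ws : List ℕ) : ∑ r : Fin ws.length, val ws r = ws.sum := by
  induction ws with
  | nil => simp
  | cons x xs ih =>
    simp only [List.length_cons, Fin.sum_univ_succ, List.sum_cons]
    simp [ih]

/-- The check of the fractional solution. -/
def checkLP (t bb : List ℕ) (pats : List (List ℕ)) (ws : List ℕ) (L D : ℕ) : Bool :=
  Nat.ble 1 L && Nat.ble 1 D &&
  Nat.beq bb.length t.length && Nat.beq ws.length pats.length &&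
  t.Nodup &&
  t.all (fun x => Nat.ble 1 x && Nat.ble x L) &&
  bb.all (fun x => Nat.ble 1 x) &&
  pats.all (fun p => Nat.ble (dot t p) L) &&
  (List.range t.length).all (fun i => Nat.ble (val bb i * D) (covSum pats ws i))

/-- The expanded instance attached to the lists `t` (sizes) and `bb` (multiplicities). -/
def mkInst (t bb : List ℕ) (L : ℕ) : List ℚ :=
  expand L (fun i : Fin t.length => t.get i) (fun i : Fin t.length => val bb i)

theorem isInstance_mkInst (t bb : List ℕ) (pats : List (List ℕ)) (ws : List ℕ) (L D : ℕ)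
    (h : checkLP t bb pats ws L D = true) : IsInstance (mkInst t bb L) := by
  simp only [checkLP, Bool.and_eq_true, List.all_eq_true, decide_eq_true_eq] at h
  obtain ⟨⟨⟨⟨⟨⟨⟨⟨hL, hD⟩, hlen⟩, hws⟩, hnd⟩, ht⟩, hb⟩, hp⟩, hc⟩ := h
  apply isInstance_expand (Nat.le_of_ble_eq_true hL)
  intro i
  have := ht (t.get i) (List.get_mem _ _)
  exact ⟨Nat.le_of_ble_eq_true this.1, Nat.le_of_ble_eq_true this.2⟩

theorem LP_mkInst_le (t bb : List ℕ) (pats : List (List ℕ)) (ws : List ℕ) (L D : ℕ)
    (h : checkLP t bb pats ws L D = true) :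
    LP (mkInst t bb L) ≤ (ws.sum : ℝ) / D := by
  simp only [checkLP, Bool.and_eq_true, List.all_eq_true, decide_eq_true_eq, List.mem_range] at h
  obtain ⟨⟨⟨⟨⟨⟨⟨⟨hL, hD⟩, hlen⟩, hws⟩, hnd⟩, ht⟩, hb⟩, hp⟩, hc⟩ := h
  have hlen' : bb.length = t.length := Nat.eq_of_beq_eq_true hlen
  have hws' : ws.length = pats.length := Nat.eq_of_beq_eq_true hws
  have hinj : Function.Injective (fun i : Fin t.length => t.get i) :=
    List.nodup_iff_injective_get.1 hnd
  have hmain := LP_le_of_patterns (m := t.length) (N := pats.length) (L := L)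
    (t := fun i : Fin t.length => t.get i) (b := fun i : Fin t.length => val bb i)
    (Nat.le_of_ble_eq_true hL) hinj
    (by
      intro i
      have hi : (i : ℕ) < bb.length := by rw [hlen']; exact i.2
      have := hb (bb[(i : ℕ)]) (List.getElem_mem hi)
      have h1 := Nat.le_of_ble_eq_true this
      simp only [val, List.getD_eq_getElem _ _ hi]
      omega)
    (fun r i => val (pats.get r) i) (fun r => val ws r) D (Nat.le_of_ble_eq_true hD)
    (by
      intro r
      rw [← dot_eq_sum]
      exact Nat.le_of_ble_eq_true (hp _ (List.get_mem _ _)))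
    (by
      intro i
      rw [← covSum_eq]
      exact Nat.le_of_ble_eq_true (hc i i.2))
  have hsum : (∑ r : Fin pats.length, val ws r) = ws.sum := by
    rw [← sum_val_eq ws]
    rw [hws']
  rw [hsum] at hmain
  exact hmain

/-- The final gap bound. -/
theorem gap_ge (t bb W : List ℕ) (L U B k : ℕ) (P pats : List (List ℕ)) (ws : List ℕ) (D : ℕ)
    (h1 : checkLP t bb pats ws L D = true) (h2 : noPack t bb W L U B k P = true) :
    IsInstance (mkInst t bb L) ∧
      ((k : ℝ) + 1) - (ws.sum : ℝ) / D ≤ (OPT (mkInst t bb L) : ℝ) - LP (mkInst t bb L) := by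
  have hI := isInstance_mkInst t bb pats ws L D h1
  refine ⟨hI, ?_⟩
  have hLP := LP_mkInst_le t bb pats ws L D h1
  simp only [checkLP, Bool.and_eq_true, List.all_eq_true, decide_eq_true_eq, List.mem_range] at h1
  obtain ⟨⟨⟨⟨⟨⟨⟨⟨hL, hD⟩, hlen⟩, hws⟩, hnd⟩, ht⟩, hb⟩, hp⟩, hc⟩ := h1
  have hinj : Function.Injective (fun i : Fin t.length => t.get i) :=
    List.nodup_iff_injective_get.1 hnd
  have hno := not_packable_of_check t bb W L U B k P (Nat.le_of_ble_eq_true hL)
    (Nat.eq_of_beq_eq_true hlen) hinj h2
  have hopt : k + 1 ≤ OPT (mkInst t bb L) := OPT_ge hI hno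
  have hopt' : ((k : ℝ) + 1) ≤ (OPT (mkInst t bb L) : ℝ) := by exact_mod_cast hopt
  linarith

end Vale.Agent.Lib.P302
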