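import Vale.Agent.Lib.P302.Final

/-!
A short refutation of a packing through a subadditive function on a finite abelian group.

Each item type gets a class in a product of cyclic groups, through linear maps modulo `n`.
If every feasible pattern `p` satisfies `W(p) + φ(class p) ≤ U` and `φ` is subadditive, then a
packing of the demand `b` into `k` bins forces `W(b) + φ(class b) ≤ k * U`.
-/

namespace Vale.Agent.Lib.P302

/-- The residues of the values of `f` at the linear forms `As` modulo the entries of `Ns`. -/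
def cvF : List (List ℕ) → List ℕ → (List ℕ → ℕ) → List ℕ
  | a :: as, n :: ns, f => f a % n :: cvF as ns f
  | _, _, _ => []

/-- Pointwise addition of residue vectors. -/
def addm : List ℕ → List ℕ → List ℕ → List ℕ
  | n :: ns, x :: xs, y :: ys => (x + y) % n :: addm ns xs ys
  | _, _, _ => []

/-- Runs a test on all residue vectors. -/
def allRes : List ℕ → (List ℕ → Bool) → Bool
  | [], chk => chk []
  | n :: ns, chk => (List.range n).all (fun x => allRes ns (fun r => chk (x :: r)))

/-- The vector is a residue vector for the moduli. -/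
def IsRes : List ℕ → List ℕ → Prop
  | [], [] => True
  | n :: ns, x :: xs => x < n ∧ IsRes ns xs
  | _, _ => False

lemma allRes_sound (Ns : List ℕ) (chk : List ℕ → Bool) (h : allRes Ns chk = true) (v : List ℕ)
    (hv : IsRes Ns v) : chk v = true := by
  induction Ns generalizing chk v with
  | nil =>
    cases v with
    | nil => simpa [allRes] using h
    | cons x xs => simp [IsRes] at hv
  | cons n ns ih =>
    cases v with
    | nil => simp [IsRes] at hv
    | cons x xs =>
      simp only [allRes, List.all_eq_true, List.mem_range] at h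
      exact ih (fun r => chk (x :: r)) (h x hv.1) xs hv.2

lemma isRes_cvF (As : List (List ℕ)) (Ns : List ℕ) (f : List ℕ → ℕ)
    (hlen : As.length = Ns.length) (hpos : ∀ n ∈ Ns, 1 ≤ n) : IsRes Ns (cvF As Ns f) := by
  induction As generalizing Ns with
  | nil =>
    have : Ns = [] := List.length_eq_zero_iff.1 (by simpa using hlen.symm)
    subst this
    simp [cvF, IsRes]
  | cons a as ih =>
    cases Ns with
    | nil => simp at hlen
    | cons n ns =>
      simp only [cvF, IsRes]
      exact ⟨Nat.mod_lt _ (hpos n (by simp)), ih ns (by simpa using hlen)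
        (fun m hm => hpos m (by simp [hm]))⟩

lemma cvF_add (As : List (List ℕ)) (Ns : List ℕ) (f g : List ℕ → ℕ) :
    cvF As Ns (fun a => f a + g a) = addm Ns (cvF As Ns f) (cvF As Ns g) := by
  induction As generalizing Ns with
  | nil => cases Ns <;> simp [cvF, addm]
  | cons a as ih =>
    cases Ns with
    | nil => simp [cvF, addm]
    | cons n ns =>
      simp only [cvF, addm, ih]
      rw [Nat.add_mod]

lemma cvF_zero (As : List (List ℕ)) (Ns : List ℕ) (f : List ℕ → ℕ) (hf : ∀ a, f a = 0) :
    cvF As Ns f = cvF As Ns (fun _ => 0) := by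
  have : f = fun _ => 0 := funext hf
  rw [this]

/-- The subadditivity of `φ` along a list of patterns. -/
lemma phi_sum (As : List (List ℕ)) (Ns : List ℕ) (φ : List ℕ → ℕ)
    (hlen : As.length = Ns.length) (hpos : ∀ n ∈ Ns, 1 ≤ n)
    (h0 : φ (cvF As Ns (fun _ => 0)) = 0)
    (hsub : ∀ v w, IsRes Ns v → IsRes Ns w → φ (addm Ns v w) ≤ φ v + φ w)
    (ps : List (List ℕ)) :
    φ (cvF As Ns (fun a => (ps.map (dot a)).sum)) ≤
      (ps.map (fun p => φ (cvF As Ns (fun a => dot a p)))).sum := by
  induction ps with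
  | nil => simp [h0]
  | cons p ps ih =>
    simp only [List.map_cons, List.sum_cons]
    rw [cvF_add]
    exact (hsub _ _ (isRes_cvF As Ns _ hlen hpos) (isRes_cvF As Ns _ hlen hpos)).trans
      (Nat.add_le_add_left ih _)

/-- The whole check, for an arbitrary function `φ` on residue vectors. -/
def noPackG (t bb W : List ℕ) (L U k : ℕ) (As : List (List ℕ)) (Ns : List ℕ)
    (φ : List ℕ → ℕ) : Bool :=
  t.all (fun x => Nat.ble 1 x) &&
  Ns.all (fun x => Nat.ble 1 x) &&
  Nat.beq As.length Ns.length &&
  Nat.beq (φ (cvF As Ns (fun _ => 0))) 0 &&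
  allRes Ns (fun v => allRes Ns (fun w => Nat.ble (φ (addm Ns v w)) (φ v + φ w))) &&
  allPats (fun p => Nat.ble (dot W p + φ (cvF As Ns (fun a => dot a p))) U) t bb L &&
  Nat.ble (k * U + 1) (dot W bb + φ (cvF As Ns (fun a => dot a bb)))

theorem noPackG_sound (t bb W : List ℕ) (L U k : ℕ) (As : List (List ℕ)) (Ns : List ℕ)
    (φ : List ℕ → ℕ) (h : noPackG t bb W L U k As Ns φ = true)
    (ps : List (List ℕ)) (hlen : ps.length = k)
    (hplen : ∀ p ∈ ps, p.length = t.length)
    (hdot : ∀ p ∈ ps, dot t p ≤ L)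
    (hsum : SumsTo ps bb) : False := by
  simp only [noPackG, Bool.and_eq_true, List.all_eq_true] at h
  obtain ⟨⟨⟨⟨⟨⟨htpos, hNs⟩, hAN⟩, h0⟩, hsub⟩, hall⟩, hfin⟩ := h
  have htpos' : ∀ x ∈ t, 1 ≤ x := fun x hx => Nat.le_of_ble_eq_true (htpos x hx)
  have hNs' : ∀ x ∈ Ns, 1 ≤ x := fun x hx => Nat.le_of_ble_eq_true (hNs x hx)
  have hAN' : As.length = Ns.length := Nat.eq_of_beq_eq_true hAN
  have h0' : φ (cvF As Ns (fun _ => 0)) = 0 := Nat.eq_of_beq_eq_true h0
  have hsub' : ∀ v w, IsRes Ns v → IsRes Ns w → φ (addm Ns v w) ≤ φ v + φ w := by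
    intro v w hv hw
    have h1 := allRes_sound Ns _ hsub v hv
    have h2 := allRes_sound Ns _ h1 w hw
    exact Nat.le_of_ble_eq_true h2
  have hchk : ∀ p ∈ ps, dot W p + φ (cvF As Ns (fun a => dot a p)) ≤ U := fun p hp =>
    Nat.le_of_ble_eq_true
      (allPats_sound _ t bb L htpos' hall p (hplen p hp) (val_le_of_mem hsum hp) (hdot p hp))
  have hfin' : k * U + 1 ≤ dot W bb + φ (cvF As Ns (fun a => dot a bb)) :=
    Nat.le_of_ble_eq_true hfin
  have hcv : cvF As Ns (fun a => dot a bb) = cvF As Ns (fun a => (ps.map (dot a)).sum) := by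
    congr 1
    funext a
    exact dot_sum a ps bb hsum
  have hphi := phi_sum As Ns φ hAN' hNs' h0' hsub' ps
  rw [← hcv] at hphi
  have hW := dot_sum W ps bb hsum
  have htotal : (ps.map (dot W)).sum + (ps.map (fun p => φ (cvF As Ns (fun a => dot a p)))).sum
      ≤ k * U := by
    rw [← List.sum_map_add]
    calc (ps.map (fun p => dot W p + φ (cvF As Ns (fun a => dot a p)))).sum
        ≤ ps.length • U := List.sum_le_card_nsmul _ _ (by
            intro x hx
            obtain ⟨q, hq, rfl⟩ := List.mem_map.1 hx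
            exact hchk q hq) |>.trans (by simp)
      _ = k * U := by simp [hlen]
  omega

/-- A check implies that the expanded list cannot be packed in `k` bins. -/
theorem not_packable_of_checkG (t bb W : List ℕ) (L U k : ℕ) (As : List (List ℕ)) (Ns : List ℕ)
    (φ : List ℕ → ℕ)
    (hL : 0 < L) (hbb : bb.length = t.length)
    (hinj : Function.Injective (fun i : Fin t.length => t.get i))
    (h : noPackG t bb W L U k As Ns φ = true) :
    ¬ PackableIn (expand L (fun i : Fin t.length => t.get i)
      (fun i : Fin t.length => val bb i)) k := by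
  intro hp
  obtain ⟨a, ha1, ha2⟩ := patterns_of_packable hL hinj hp
  let pj : Fin k → List ℕ := fun j => List.ofFn (a j)
  have hval : ∀ j (i : ℕ), val (pj j) i = if hi : i < t.length then a j ⟨i, hi⟩ else 0 := by
    intro j i
    simp only [val, pj, List.getD_eq_getElem?_getD, List.getElem?_ofFn]
    split_ifs <;> simp
  refine noPackG_sound t bb W L U k As Ns φ h (List.ofFn pj) (by simp) ?_ ?_ ?_
  · intro p hp
    obtain ⟨j, rfl⟩ := (List.mem_ofFn' _ _).1 hp
    simp [pj]
  · intro p hp
    obtain ⟨j, rfl⟩ := (List.mem_ofFn' _ _).1 hp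
    have hdot_eq : ∀ (s : List ℕ) (f : Fin s.length → ℕ),
        dot s (List.ofFn f) = ∑ i, s.get i * f i := by
      intro s
      induction s with
      | nil => intro f; simp [dot]
      | cons x xs ih =>
        intro f
        simp only [dot, List.length_cons, List.ofFn_succ, List.headD_cons, List.tail_cons,
          Fin.sum_univ_succ, List.get_cons_zero]
        rw [ih]
        rfl
    rw [show pj j = List.ofFn (a j) from rfl, hdot_eq]
    exact ha1 j
  · intro i
    rw [List.map_ofFn, List.sum_ofFn]
    by_cases hi : i < t.length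
    · simp only [Function.comp, hval, hi, dif_pos]
      exact ha2 ⟨i, hi⟩
    · simp only [Function.comp, hval, hi, dif_neg, not_false_eq_true, Finset.sum_const_zero]
      have : bb.length ≤ i := by omega
      simp [val, List.getElem?_eq_none this]

/-- The final gap bound. -/
theorem gap_geG (t bb W : List ℕ) (L U k : ℕ) (As : List (List ℕ)) (Ns : List ℕ)
    (φ : List ℕ → ℕ)
    (pats : List (List ℕ)) (ws : List ℕ) (D : ℕ)
    (h1 : checkLP t bb pats ws L D = true) (h2 : noPackG t bb W L U k As Ns φ = true) :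
    IsInstance (mkInst t bb L) ∧
      ((k : ℝ) + 1) - (ws.sum : ℝ) / D ≤ (OPT (mkInst t bb L) : ℝ) - LP (mkInst t bb L) := by
  have hI := isInstance_mkInst t bb pats ws L D h1
  refine ⟨hI, ?_⟩
  have hLP := LP_mkInst_le t bb pats ws L D h1
  simp only [checkLP, Bool.and_eq_true, List.all_eq_true, decide_eq_true_eq, List.mem_range] at h1
  obtain ⟨⟨⟨⟨⟨⟨⟨⟨hL, hD⟩, hlen⟩, hws⟩, hnd⟩, ht⟩, hb⟩, hp⟩, hc⟩ := h1
  have hinj : Function.Injective (fun i : Fin t.length => t.get i) :=
    List.nodup_iff_injective_get.1 hnd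
  have hno := not_packable_of_checkG t bb W L U k As Ns φ (Nat.le_of_ble_eq_true hL)
    (Nat.eq_of_beq_eq_true hlen) hinj h2
  have hopt : k + 1 ≤ OPT (mkInst t bb L) := OPT_ge hI hno
  have hopt' : ((k : ℝ) + 1) ≤ (OPT (mkInst t bb L) : ℝ) := by exact_mod_cast hopt
  linarith

/-- Index of a residue vector in the product of the moduli. -/
def idxOf : List ℕ → List ℕ → ℕ
  | n :: ns, x :: xs => x + n * idxOf ns xs
  | _, _ => 0

/-- The function read from a numeral with digits of `w` bits, by the index of the residue vector. -/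
def phiCode (w code : ℕ) (Ns v : List ℕ) : ℕ := (code >>> (w * idxOf Ns v)) % 2 ^ w

end Vale.Agent.Lib.P302
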